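import Vale.Agent.Lib.P356.helper23.Defs

/-!
# P356, job D (second copy of helper6): the entropy of a probability vector is at most the
logarithm of the size of its support (Jensen for the concave function `-x log x`).
-/

namespace Vale.Agent.Lib.P356.H6

open Matrix
open Vale.Agent.Lib.P356

theorem sum_negMulLog_le {n : Type*} [Fintype n] (lam : n → ℝ) (h0 : ∀ i, 0 ≤ lam i)
    (h1 : ∑ i, lam i = 1) :
    ∑ i, Real.negMulLog (lam i) ≤ Real.log (Fintype.card {i // lam i ≠ 0}) := by
  classical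
  obtain ⟨S, hS⟩ : ∃ S : Finset n, S = Finset.univ.filter (fun i => lam i ≠ 0) := ⟨_, rfl⟩
  have hcard : Fintype.card {i // lam i ≠ 0} = S.card := by
    rw [Fintype.card_subtype, hS]
  rw [hcard]
  have hsumS : ∑ i ∈ S, lam i = 1 := by
    rw [← h1, hS, Finset.sum_filter]
    refine Finset.sum_congr rfl fun i _ => ?_
    by_cases h : lam i = 0
    · rw [h, if_neg (not_not.mpr rfl)]
    · rw [if_pos h]
  have hnegS : ∑ i, Real.negMulLog (lam i) = ∑ i ∈ S, Real.negMulLog (lam i) := by
    rw [hS, Finset.sum_filter]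
    refine Finset.sum_congr rfl fun i _ => ?_
    by_cases h : lam i = 0
    · rw [h, if_neg (not_not.mpr rfl), Real.negMulLog_zero]
    · rw [if_pos h]
  rw [hnegS]
  have hne : S.Nonempty := by
    by_contra hemp
    rw [Finset.not_nonempty_iff_eq_empty] at hemp
    rw [hemp, Finset.sum_empty] at hsumS
    exact zero_ne_one hsumS
  have hk : (0 : ℝ) < (S.card : ℝ) := by exact_mod_cast hne.card_pos
  have hk1 : (0 : ℝ) < 1 / (S.card : ℝ) := by positivity
  have hw : ∑ _i ∈ S, (1 : ℝ) / (S.card : ℝ) = 1 := by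
    rw [Finset.sum_const, nsmul_eq_mul]
    field_simp
  have hJ := Real.concaveOn_negMulLog.le_map_sum (t := S) (w := fun _ => (1 : ℝ) / (S.card : ℝ))
    (p := lam) (fun i _ => hk1.le) hw (fun i _ => Set.mem_Ici.mpr (h0 i))
  simp only [smul_eq_mul] at hJ
  rw [← Finset.mul_sum, ← Finset.mul_sum, hsumS, mul_one] at hJ
  have hval : Real.negMulLog (1 / (S.card : ℝ)) = (1 / (S.card : ℝ)) * Real.log (S.card : ℝ) := by
    rw [Real.negMulLog, one_div, Real.log_inv]
    ring
  rw [hval] at hJ
  exact le_of_mul_le_mul_left hJ hk1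

end Vale.Agent.Lib.P356.H6
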