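import Vale.Agent.Lib.P356.helper23.Defs

/-!
# P356, job B (second copy of helper6): an operator on `A` times an operator off `A` sends a
basis vector to a product vector.
-/

namespace Vale.Agent.Lib.P356.H6

open Matrix
open Vale.Agent.Lib.P356

theorem glue_of_mem {Λ : Type*} [DecidableEq Λ] {q : ℕ} (A : Finset Λ)
    (a : {x // x ∈ A} → Fin q) (b : {x // x ∉ A} → Fin q)
    {x : Λ} (h : x ∈ A) : glue A a b x = a ⟨x, h⟩ := dif_pos h

theorem glue_of_not_mem {Λ : Type*} [DecidableEq Λ] {q : ℕ} (A : Finset Λ)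
    (a : {x // x ∈ A} → Fin q) (b : {x // x ∉ A} → Fin q)
    {x : Λ} (h : x ∉ A) : glue A a b x = b ⟨x, h⟩ := dif_neg h

section

variable {Λ : Type*} [Fintype Λ] [DecidableEq Λ] {q : ℕ}

theorem prod_entry (A : Finset Λ) (TA TB : Matrix (Conf Λ q) (Conf Λ q) ℂ)
    (hA : SupportedOn A TA) (hB : SupportedOn Aᶜ TB) (σ : Conf Λ q) :
    ∃ (f : ({x // x ∈ A} → Fin q) → ℂ) (g : ({x // x ∉ A} → Fin q) → ℂ),
      ∀ τ : Conf Λ q, (TA * TB) τ σ = f (fun x => τ x.1) * g (fun x => τ x.1) := by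
  refine ⟨fun a => TA (glue A a (fun x => σ x.1)) σ,
    fun b => TB (glue A (fun x => σ x.1) b) σ, fun τ => ?_⟩
  have hsum : (TA * TB) τ σ =
      TA τ (glue A (fun x => σ x.1) (fun x => τ x.1)) *
        TB (glue A (fun x => σ x.1) (fun x => τ x.1)) σ := by
    rw [Matrix.mul_apply]
    refine Finset.sum_eq_single _ (fun κ _ hκ => ?_) (fun h => absurd (Finset.mem_univ _) h)
    obtain ⟨x, hx⟩ := Function.ne_iff.mp hκ
    by_cases hxA : x ∈ A
    · rw [glue_of_mem A _ _ hxA] at hx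
      have hz : TB κ σ = 0 := by
        by_contra hne
        exact hx (hB.1 κ σ hne x (fun h => (Finset.mem_compl.mp h) hxA))
      rw [hz, mul_zero]
    · rw [glue_of_not_mem A _ _ hxA] at hx
      have hz : TA τ κ = 0 := by
        by_contra hne
        exact hx (hA.1 τ κ hne x hxA).symm
      rw [hz, zero_mul]
  have e : TA τ (glue A (fun x => σ x.1) (fun x => τ x.1)) =
      TA (glue A (fun x => τ x.1) (fun x => σ x.1)) σ :=
    hA.2 τ _ _ σ
      (fun x hx => (glue_of_mem A (fun x => τ x.1) (fun x => σ x.1) hx).symm)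
      (fun x hx => glue_of_mem A (fun x => σ x.1) (fun x => τ x.1) hx)
      (fun x hx => (glue_of_not_mem A (fun x => σ x.1) (fun x => τ x.1) hx).symm)
      (fun x hx => glue_of_not_mem A (fun x => τ x.1) (fun x => σ x.1) hx)
  rw [hsum, e]

end

end Vale.Agent.Lib.P356.H6
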